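import Mathlib.FieldTheory.PrimitiveElement
import Mathlib.RingTheory.Localization.Integral
import Mathlib.Algebra.MvPolynomial.Monad
import Mathlib.RingTheory.Ideal.Quotient.Operations
import Mathlib.Analysis.Complex.Basic
import Mathlib.FieldTheory.Perfect

/-!
# P253Z, block VS: the algebra of the Siegel-Thimm argument
-/

open Polynomial Filter

noncomputable section

namespace Vale.Agent.P253Z.VS

/-- an extension of bounded degree has a primitive element -/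
theorem prim {A F : Type} [CommRing A] [IsDomain A] [CharZero A] [Field F] (φ : A →+* F)
    (hφ : Function.Injective φ) (J : ℕ)
    (h : ∀ x : F, ∃ Q : A[X], Q ≠ 0 ∧ Q.natDegree ≤ J ∧ Q.eval₂ φ x = 0) :
    ∃ (g : F) (P : A[X]), P.eval₂ φ g = 0 ∧ P.derivative.eval₂ φ g ≠ 0 ∧
      ∀ x, ∃ d : A, d ≠ 0 ∧ ∃ Q : A[X], φ d * x = Q.eval₂ φ g := by
  let _ : Algebra A F := φ.toAlgebra
  have : FaithfulSMul A F := (faithfulSMul_iff_algebraMap_injective A F).2 hφ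
  let K := FractionRing A
  let _ : Algebra K F := FractionRing.liftAlgebra A F
  have : IsScalarTower A K F := FractionRing.isScalarTower_liftAlgebra A F
  have hinj : Function.Injective (algebraMap A K) := IsFractionRing.injective A K
  have : CharZero K := algebraRat.charZero K
  have hev : ∀ (Q : A[X]) (x : F), aeval x (Q.map (algebraMap A K)) = Q.eval₂ φ x := by
    intro Q x
    rw [aeval_map_algebraMap, aeval_def]
    rfl
  have hdeg : ∀ x : F, IsAlgebraic K x ∧ (minpoly K x).natDegree ≤ J := by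
    intro x
    obtain ⟨Q, h0, h1, h2⟩ := h x
    have h3 : Q.map (algebraMap A K) ≠ 0 := (Polynomial.map_ne_zero_iff hinj).2 h0
    have h4 : aeval x (Q.map (algebraMap A K)) = 0 := by rw [hev, h2]
    refine ⟨⟨_, h3, h4⟩, ?_⟩
    exact ((natDegree_le_natDegree (minpoly.degree_le_of_ne_zero K x h3 h4)).trans
      natDegree_map_le).trans h1
  have : Algebra.IsAlgebraic K F := ⟨fun x => (hdeg x).1⟩
  have hfin : FiniteDimensional K F := by
    by_contra hn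
    obtain ⟨L, hL, hlt⟩ := IntermediateField.exists_lt_finrank_of_infinite_dimensional hn J
    obtain ⟨α, hα⟩ := Field.exists_primitive_element K L
    have h1 := (Field.primitive_element_iff_minpoly_natDegree_eq K α).1 hα
    have h2 := (hdeg (α : F)).2
    rw [IntermediateField.minpoly_eq] at h1
    omega
  obtain ⟨g, hg⟩ := Field.exists_primitive_element K F
  have clear : ∀ p : K[X], ∃ d : A, d ≠ 0 ∧ ∃ Q : A[X],
      Q.map (algebraMap A K) = C (algebraMap A K d) * p := by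
    intro p
    obtain ⟨b, hb, hp⟩ := IsLocalization.integerNormalization_spec (nonZeroDivisors A) p
    refine ⟨b, nonZeroDivisors.ne_zero hb, _, hp.trans ?_⟩
    rw [← IsScalarTower.algebraMap_smul K b p, smul_eq_C_mul]
  have hd : ∀ d : A, algebraMap K F (algebraMap A K d) = φ d := fun d =>
    (IsScalarTower.algebraMap_apply A K F d).symm
  obtain ⟨d, hd0, P, hP⟩ := clear (minpoly K g)
  refine ⟨g, P, ?_, ?_, fun x => ?_⟩
  · rw [← hev, hP, map_mul, minpoly.aeval, mul_zero]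
  · rw [← hev, ← derivative_map, hP, derivative_C_mul, map_mul, aeval_C, hd]
    refine mul_ne_zero ((map_ne_zero_iff φ hφ).2 hd0) ?_
    exact (Algebra.IsSeparable.isSeparable K g).aeval_derivative_ne_zero (minpoly.aeval K g)
  · have h1 : x ∈ (IntermediateField.adjoin K {g}).toSubalgebra := by
      rw [hg]; trivial
    rw [IntermediateField.adjoin_simple_toSubalgebra_of_isAlgebraic (hdeg g).1,
      Algebra.adjoin_singleton_eq_range_aeval] at h1
    obtain ⟨r, hr⟩ := h1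
    obtain ⟨d, hd0, Q, hQ⟩ := clear r
    refine ⟨d, hd0, Q, ?_⟩
    rw [← hev, hQ, map_mul, aeval_C, hd]
    exact congrArg _ hr.symm

variable {n : ℕ} {X : Type}

/-- the value of a polynomial in `ζ` and `t` -/
def ev (Q : (MvPolynomial (Fin n) ℂ)[X]) (ζ : Fin n → ℂ) (t : ℂ) : ℂ :=
  (Q.map (MvPolynomial.eval ζ)).eval t

/-- a graded algebra of functions -/
structure Gr (T : ℕ → Submodule ℂ (X → ℂ)) : Prop where
  one : 1 ∈ T 0
  mul : ∀ m l, ∀ s ∈ T m, ∀ t ∈ T l, s * t ∈ T (m + l)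

variable {T : ℕ → Submodule ℂ (X → ℂ)}

theorem Gr.pow (h : Gr T) {m : ℕ} {s : X → ℂ} (hs : s ∈ T m) (k : ℕ) : s ^ k ∈ T (k * m) := by
  induction k with
  | zero => simpa using h.one
  | succ k ih =>
    rw [pow_succ, Nat.succ_mul]
    exact h.mul _ _ _ ih _ hs

theorem Gr.mix (h : Gr T) {m : ℕ} {s t : X → ℂ} (hs : s ∈ T m) (ht : t ∈ T m) {j k : ℕ}
    (hjk : j ≤ k) : s ^ j * t ^ (k - j) ∈ T (k * m) := by
  have := h.mul _ _ _ (h.pow hs j) _ (h.pow ht (k - j))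
  rwa [← Nat.add_mul, Nat.add_sub_cancel' hjk] at this

theorem Gr.prod (h : Gr T) {ι : Type} (S : Finset ι) {d : ℕ} {u : ι → X → ℂ}
    (hu : ∀ i, u i ∈ T d) : ∏ i ∈ S, u i ∈ T (S.card * d) := by
  classical
  induction S using Finset.induction_on with
  | empty => simpa using h.one
  | insert a S ha ih =>
    rw [Finset.prod_insert ha, Finset.card_insert_of_notMem ha, Nat.succ_mul, Nat.add_comm]
    exact h.mul _ _ _ (hu a) _ ih

/-- counting: all ratios are algebraic of bounded degree -/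
theorem count (hn : 1 ≤ n) (h : Gr T) {C : ℝ}
    (hC : ∀ m : ℕ, 1 ≤ m → Module.Finite ℂ (T m) ∧ (Module.finrank ℂ (T m) : ℝ) ≤ C * m ^ n)
    {m : ℕ} (hm : 1 ≤ m) {s₀ : X → ℂ} {s : Fin n → X → ℂ} (h₀ : s₀ ∈ T m) (hs : ∀ i, s i ∈ T m) :
    ∃ J : ℕ, ∀ l, ∀ a ∈ T l, ∀ b ∈ T l, ∃ Q : (MvPolynomial (Fin n) ℂ)[X], Q ≠ 0 ∧
      Q.natDegree ≤ J ∧ ∀ y, s₀ y ≠ 0 → b y ≠ 0 →
        ev Q (fun i => s i y / s₀ y) (a y / b y) = 0 := by
  classical
  obtain ⟨J, hJ⟩ := exists_nat_ge (|C| * ((n * m + 1 : ℕ) : ℝ) ^ n)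
  refine ⟨J, fun l a ha b hb => ?_⟩
  set k := J * l + 1 with hk
  let u : (Fin n → Fin (k + 1)) × Fin (J + 1) → X → ℂ := fun p =>
    (∏ i, s i ^ (p.1 i : ℕ) * s₀ ^ (k - p.1 i)) * (a ^ (p.2 : ℕ) * b ^ (J - p.2))
  have hu : ∀ p, u p ∈ T (n * (k * m) + J * l) := by
    intro p
    refine h.mul _ _ _ ?_ _ (h.mix ha hb (Nat.lt_succ_iff.1 p.2.2))
    have := h.prod Finset.univ (u := fun i => s i ^ (p.1 i : ℕ) * s₀ ^ (k - p.1 i))
      fun i => h.mix (hs i) h₀ (Nat.lt_succ_iff.1 (p.1 i).2)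
    simpa using this
  have hD : 1 ≤ n * (k * m) + J * l :=
    le_add_right (Nat.mul_pos hn (Nat.mul_pos (by omega) hm))
  obtain ⟨hfin, hdim⟩ := hC _ hD
  have hdep : ¬ LinearIndependent ℂ fun p => (⟨u p, hu p⟩ : T (n * (k * m) + J * l)) := by
    intro hli
    have h1 := hli.fintype_card_le_finrank
    simp only [Fintype.card_prod, Fintype.card_fun, Fintype.card_fin] at h1
    have h2 : (((k + 1) ^ n * (J + 1) : ℕ) : ℝ) ≤ C * ((n * (k * m) + J * l : ℕ) : ℝ) ^ n :=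
      (Nat.cast_le.2 h1).trans hdim
    have h3 : n * (k * m) + J * l ≤ (n * m + 1) * (k + 1) := by
      rw [hk]; nlinarith [Nat.zero_le (n * m)]
    have h4 : ((n * (k * m) + J * l : ℕ) : ℝ) ^ n ≤
        ((n * m + 1 : ℕ) : ℝ) ^ n * ((k + 1 : ℕ) : ℝ) ^ n := by
      rw [← mul_pow]
      exact pow_le_pow_left₀ (Nat.cast_nonneg _) (by exact_mod_cast h3) n
    have h5 : (0 : ℝ) < ((k + 1 : ℕ) : ℝ) ^ n := by positivity
    have h6 : C * ((n * (k * m) + J * l : ℕ) : ℝ) ^ n ≤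
        |C| * (((n * m + 1 : ℕ) : ℝ) ^ n * ((k + 1 : ℕ) : ℝ) ^ n) :=
      (mul_le_mul_of_nonneg_right (le_abs_self C) (by positivity)).trans
        (mul_le_mul_of_nonneg_left h4 (abs_nonneg C))
    have h7 : (((k + 1) ^ n * (J + 1) : ℕ) : ℝ) = ((k + 1 : ℕ) : ℝ) ^ n * (J + 1) := by
      push_cast; ring
    nlinarith
  obtain ⟨c, hc, p₀, hp₀⟩ := Fintype.not_linearIndependent_iff.1 hdep
  have hc' : ∀ y, ∑ p, c p * u p y = 0 := by
    intro y
    have h1 := congrArg (fun v : T (n * (k * m) + J * l) => (v : X → ℂ) y) hc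
    simpa [Finset.sum_apply] using h1
  let F : (Fin n → Fin (k + 1)) → (Fin n →₀ ℕ) := fun α =>
    Finsupp.equivFunOnFinite.symm fun i => (α i : ℕ)
  have hF : Function.Injective F := by
    intro α β hαβ
    funext i
    exact Fin.ext (congrFun (Finsupp.equivFunOnFinite.symm.injective hαβ) i)
  refine ⟨∑ p, monomial (p.2 : ℕ) (MvPolynomial.monomial (F p.1) (c p)), ?_, ?_, ?_⟩
  · intro h0
    have h1 := congrArg (fun Q : (MvPolynomial (Fin n) ℂ)[X] =>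
      (Q.coeff p₀.2).coeff (F p₀.1)) h0
    simp only [finsetSum_coeff, MvPolynomial.coeff_sum, coeff_zero,
      MvPolynomial.coeff_zero] at h1
    rw [Finset.sum_eq_single p₀] at h1
    · simp [hp₀] at h1
    · intro p _ hp
      rw [coeff_monomial]
      split_ifs with h2
      · rw [MvPolynomial.coeff_monomial, if_neg]
        intro h3
        exact hp (Prod.ext (hF h3) (Fin.ext h2))
      · rfl
    · simp
  · refine natDegree_sum_le_of_forall_le _ _ fun p _ => ?_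
    exact (natDegree_monomial_le _).trans (Nat.lt_succ_iff.1 p.2.2)
  · intro y hy hb'
    have h1 : ((∏ _i : Fin n, s₀ y ^ k) * b y ^ J) ≠ 0 :=
      mul_ne_zero (Finset.prod_ne_zero_iff.2 fun _ _ => pow_ne_zero _ hy) (pow_ne_zero _ hb')
    refine (mul_eq_zero_iff_right h1).1 ?_
    rw [← hc' y, ev, Polynomial.map_sum, eval_finsetSum, Finset.sum_mul]
    refine Finset.sum_congr rfl fun p _ => ?_
    rw [map_monomial, eval_monomial, MvPolynomial.eval_monomial, Finsupp.prod_fintype _ _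
      (fun i => pow_zero _)]
    have h2 : ∀ (x z : ℂ) (j N : ℕ), z ≠ 0 → j ≤ N → (x / z) ^ j * z ^ N = x ^ j * z ^ (N - j) := by
      intro x z j N hz hj
      obtain ⟨r, rfl⟩ := Nat.exists_eq_add_of_le hj
      rw [Nat.add_sub_cancel_left, div_pow, pow_add]
      field_simp
    have h3 : (∏ i, (s i y / s₀ y) ^ (F p.1 i)) * ∏ _i : Fin n, s₀ y ^ k =
        ∏ i, s i y ^ (p.1 i : ℕ) * s₀ y ^ (k - p.1 i) := by
      rw [← Finset.prod_mul_distrib]
      exact Finset.prod_congr rfl fun i _ => h2 _ _ _ _ hy (Nat.lt_succ_iff.1 (p.1 i).2)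
    have h4 := h2 (a y) (b y) p.2 J hb' (Nat.lt_succ_iff.1 p.2.2)
    simp only [u, Pi.mul_apply, Finset.prod_apply, Pi.pow_apply]
    rw [← h3, ← h4]
    ring

section Field

variable (T) (𝓕 : Filter X)

/-- functions that are generically ratios -/
def RA (h : Gr T) (_hne : ∀ m, ∀ s ∈ T m, s ≠ 0 → ∀ᶠ y in 𝓕, s y ≠ 0) [𝓕.NeBot] :
    Subalgebra ℂ (X → ℂ) where
  carrier := {u | ∃ m, ∃ a ∈ T m, ∃ b ∈ T m, (∀ᶠ y in 𝓕, b y ≠ 0) ∧ ∀ᶠ y in 𝓕, u y = a y / b y}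
  mul_mem' := by
    rintro u v ⟨m, a, ha, b, hb, h1, h2⟩ ⟨l, a', ha', b', hb', h3, h4⟩
    refine ⟨m + l, a * a', h.mul _ _ _ ha _ ha', b * b', h.mul _ _ _ hb _ hb', ?_, ?_⟩
    · filter_upwards [h1, h3] with y e1 e2 using mul_ne_zero e1 e2
    · filter_upwards [h2, h4] with y e1 e2
      simp only [Pi.mul_apply, e1, e2, div_mul_div_comm]
  add_mem' := by
    rintro u v ⟨m, a, ha, b, hb, h1, h2⟩ ⟨l, a', ha', b', hb', h3, h4⟩
    refine ⟨m + l, a * b' + b * a', add_mem (h.mul _ _ _ ha _ hb') (h.mul _ _ _ hb _ ha'),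
      b * b', h.mul _ _ _ hb _ hb', ?_, ?_⟩
    · filter_upwards [h1, h3] with y e1 e2 using mul_ne_zero e1 e2
    · filter_upwards [h1, h3, h2, h4] with y e1 e2 e3 e4
      simp only [Pi.mul_apply, Pi.add_apply, e3, e4, div_add_div _ _ e1 e2]
  algebraMap_mem' c := ⟨0, c • 1, Submodule.smul_mem _ c h.one, 1, h.one, by simp, by simp⟩

variable {T 𝓕} {h : Gr T} {hne : ∀ m, ∀ s ∈ T m, s ≠ 0 → ∀ᶠ y in 𝓕, s y ≠ 0} [𝓕.NeBot]

/-- generically vanishing functions -/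
def RI : Ideal (RA T 𝓕 h hne) where
  carrier := {u | ∀ᶠ y in 𝓕, (u : X → ℂ) y = 0}
  add_mem' := by
    intro u v hu hv
    filter_upwards [hu, hv] with y e1 e2
    simp [e1, e2]
  zero_mem' := by simp
  smul_mem' := by
    intro c u hu
    filter_upwards [hu] with y e1
    simp [e1]

theorem mem_RI {u : RA T 𝓕 h hne} : u ∈ RI ↔ ∀ᶠ y in 𝓕, (u : X → ℂ) y = 0 := Iff.rfl

theorem ev_ne {u : RA T 𝓕 h hne} (hu : u ∉ RI) : ∀ᶠ y in 𝓕, (u : X → ℂ) y ≠ 0 := by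
  obtain ⟨m, a, ha, b, hb, h1, h2⟩ := u.2
  have h3 : a ≠ 0 := by
    rintro rfl
    refine hu (mem_RI.2 ?_)
    filter_upwards [h2] with y e1
    simpa using e1
  filter_upwards [h1, h2, hne m a ha h3] with y e1 e2 e3
  rw [e2]
  exact div_ne_zero e3 e1

theorem RI_max : (RI : Ideal (RA T 𝓕 h hne)).IsMaximal := by
  rw [Ideal.isMaximal_iff]
  refine ⟨fun h1 => ?_, fun J x hJ hx hxJ => ?_⟩
  · obtain ⟨y, hy⟩ := (mem_RI.1 h1).exists
    simp at hy
  · have h0 := ev_ne hx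
    obtain ⟨m, a, ha, b, hb, h1, h2⟩ := x.2
    have h3 : ∀ᶠ y in 𝓕, a y ≠ 0 := by
      filter_upwards [h0, h2] with y e1 e2 e3
      rw [e2, e3, zero_div] at e1
      exact e1 rfl
    let v : RA T 𝓕 h hne := ⟨fun y => b y / a y, m, b, hb, a, ha, h3, by simp⟩
    have h4 : 1 - v * x ∈ (RI : Ideal (RA T 𝓕 h hne)) := by
      refine mem_RI.2 ?_
      filter_upwards [h1, h2, h3] with y e1 e2 e3
      have : ((1 - v * x : RA T 𝓕 h hne) : X → ℂ) y = 1 - b y / a y * (x : X → ℂ) y := rfl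
      rw [this, e2]
      field_simp
      ring
    have h5 := J.add_mem (hJ h4) (J.mul_mem_left v hxJ)
    rwa [sub_add_cancel] at h5

end Field

/-- **Siegel-Thimm**: the field of ratios is generated by `s i / s₀` and one more ratio. -/
theorem alg (hn : 1 ≤ n) (h : Gr T) (𝓕 : Filter X) [𝓕.NeBot]
    (hne : ∀ m, ∀ s ∈ T m, s ≠ 0 → ∀ᶠ y in 𝓕, s y ≠ 0) {C : ℝ}
    (hC : ∀ m : ℕ, 1 ≤ m → Module.Finite ℂ (T m) ∧ (Module.finrank ℂ (T m) : ℝ) ≤ C * m ^ n)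
    {m : ℕ} (hm : 1 ≤ m) {s₀ : X → ℂ} {s : Fin n → X → ℂ} (h₀ : s₀ ∈ T m) (hs : ∀ i, s i ∈ T m)
    (hs₀ : s₀ ≠ 0) (hind : ∀ d : MvPolynomial (Fin n) ℂ,
      (∀ᶠ y in 𝓕, MvPolynomial.eval (fun i => s i y / s₀ y) d = 0) → d = 0) :
    ∃ l, ∃ a ∈ T l, ∃ b ∈ T l, b ≠ 0 ∧ ∃ P : (MvPolynomial (Fin n) ℂ)[X],
      (∀ᶠ y in 𝓕, ev P (fun i => s i y / s₀ y) (a y / b y) = 0) ∧
      (∀ᶠ y in 𝓕, ev P.derivative (fun i => s i y / s₀ y) (a y / b y) ≠ 0) ∧
      ∀ l', ∀ a' ∈ T l', ∀ b' ∈ T l', b' ≠ 0 → ∃ d : MvPolynomial (Fin n) ℂ, d ≠ 0 ∧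
        ∃ Q : (MvPolynomial (Fin n) ℂ)[X], ∀ᶠ y in 𝓕,
          MvPolynomial.eval (fun i => s i y / s₀ y) d * (a' y / b' y) =
            ev Q (fun i => s i y / s₀ y) (a y / b y) := by
  obtain ⟨J, hJ⟩ := count hn h hC hm h₀ hs
  let R := RA T 𝓕 h hne
  let I : Ideal R := RI
  have : I.IsMaximal := RI_max
  let _ : Field (R ⧸ I) := Ideal.Quotient.field I
  let f : Fin n → R := fun i => ⟨fun y => s i y / s₀ y, m, s i, hs i, s₀, h₀, hne m s₀ h₀ hs₀,
    by simp⟩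
  let φ₀ : MvPolynomial (Fin n) ℂ →+* R := (MvPolynomial.aeval f : _ →ₐ[ℂ] R)
  let π : R →+* R ⧸ I := Ideal.Quotient.mk I
  let ρ : X → (R →+* ℂ) := fun y => (Pi.evalRingHom (fun _ : X => ℂ) y).comp R.val.toRingHom
  have hρ : ∀ y (u : R), ρ y u = (u : X → ℂ) y := fun _ _ => rfl
  have hρφ : ∀ y, (ρ y).comp φ₀ = MvPolynomial.eval fun i => s i y / s₀ y := by
    intro y
    refine MvPolynomial.ringHom_ext (fun c => ?_) fun i => ?_
    · simp [φ₀, hρ]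
    · simp [φ₀, hρ, f]
  have hval : ∀ (Q : (MvPolynomial (Fin n) ℂ)[X]) (u : R) y,
      ((Q.eval₂ φ₀ u : R) : X → ℂ) y = ev Q (fun i => s i y / s₀ y) ((u : X → ℂ) y) := by
    intro Q u y
    rw [← hρ, hom_eval₂, hρφ, ev, eval_map, hρ]
  have hval0 : ∀ d y, ((φ₀ d : R) : X → ℂ) y = MvPolynomial.eval (fun i => s i y / s₀ y) d := by
    intro d y
    rw [← hρφ, ← hρ]
    rfl
  have hπ : ∀ (Q : (MvPolynomial (Fin n) ℂ)[X]) (u : R),
      Q.eval₂ (π.comp φ₀) (π u) = π (Q.eval₂ φ₀ u) := fun Q u => (hom_eval₂ Q φ₀ π u).symm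
  have hπ0 : ∀ u : R, π u = 0 ↔ ∀ᶠ y in 𝓕, (u : X → ℂ) y = 0 := fun u =>
    Ideal.Quotient.eq_zero_iff_mem
  have : CharZero (MvPolynomial (Fin n) ℂ) :=
    charZero_of_injective_algebraMap (MvPolynomial.C_injective (Fin n) ℂ)
  obtain ⟨g, P, h1, h2, h3⟩ := prim (π.comp φ₀) (by
    rw [injective_iff_map_eq_zero]
    intro d hd
    refine hind d ?_
    simpa only [hval0] using (hπ0 _).1 hd) J (by
    intro x
    obtain ⟨u, rfl⟩ := Ideal.Quotient.mk_surjective x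
    obtain ⟨l, a, ha, b, hb, e1, e2⟩ := u.2
    obtain ⟨Q, q1, q2, q3⟩ := hJ l a ha b hb
    refine ⟨Q, q1, q2, (hπ Q u).trans ((hπ0 _).2 ?_)⟩
    filter_upwards [e1, e2, hne m s₀ h₀ hs₀] with y e3 e4 e5
    rw [hval, e4, q3 y e5 e3])
  obtain ⟨u, rfl⟩ := Ideal.Quotient.mk_surjective g
  obtain ⟨l, a, ha, b, hb, e1, e2⟩ := u.2
  refine ⟨l, a, ha, b, hb, ?_, P, ?_, ?_, fun l' a' ha' b' hb' hb0 => ?_⟩
  · rintro rfl
    obtain ⟨y, hy⟩ := e1.exists
    exact hy rfl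
  · filter_upwards [e2, (hπ0 _).1 ((hπ P u).symm.trans h1)] with y e3 e4
    rwa [hval, e3] at e4
  · have h4 : P.derivative.eval₂ φ₀ u ∉ I := fun h5 =>
      h2 ((hπ _ u).trans (Ideal.Quotient.eq_zero_iff_mem.2 h5))
    filter_upwards [e2, ev_ne h4] with y e3 e4
    rwa [hval, e3] at e4
  · let v : R := ⟨fun y => a' y / b' y, l', a', ha', b', hb', hne l' b' hb' hb0, by simp⟩
    obtain ⟨d, hd, Q, hQ⟩ := h3 (π v)
    refine ⟨d, hd, Q, ?_⟩
    have h4 : π (φ₀ d * v - Q.eval₂ φ₀ u) = 0 := by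
      rw [map_sub, map_mul, ← hπ, sub_eq_zero]
      exact hQ
    filter_upwards [e2, (hπ0 _).1 h4] with y e3 e4
    have e5 : ((φ₀ d * v - Q.eval₂ φ₀ u : R) : X → ℂ) y =
        ((φ₀ d : R) : X → ℂ) y * (a' y / b' y) - ((Q.eval₂ φ₀ u : R) : X → ℂ) y := rfl
    rwa [e5, hval, hval0, e3, sub_eq_zero] at e4

end Vale.Agent.P253Z.VS
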