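import Vale.Agent.P253Z.Spec
import Vale.Agent.P253Z.VS.Alg
import Mathlib.Analysis.Analytic.Polynomial

/-!
# P253Z, block VS: ratios of sections, the Jacobian section
-/

open scoped Manifold ContDiff Topology
open IsManifold Set Filter
open Vale.Agent.P272.K (Cm jacM Chart)

set_option linter.unusedSectionVars false

noncomputable section

namespace Vale.Agent.P253Z.VS

variable {n : ℕ}

theorem freq_ne {d : MvPolynomial (Fin n) ℂ} (hd : d ≠ 0) (ζ : Cm n) :
    ∃ᶠ z in 𝓝 ζ, MvPolynomial.eval z d ≠ 0 := by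
  intro h
  refine hd (MvPolynomial.funext fun z => ?_)
  have h1 : (fun z : Cm n => MvPolynomial.eval z d) =ᶠ[𝓝 ζ] 0 := by
    filter_upwards [h] with z hz using not_not.1 hz
  have h2 := (AnalyticOnNhd.eval_mvPolynomial d).eqOn_zero_of_preconnected_of_eventuallyEq_zero
    isPreconnected_univ (mem_univ ζ) h1 (mem_univ z)
  simpa using h2

theorem exists_quot (P : Polynomial (MvPolynomial (Fin n) ℂ)) :
    ∃ R : Cm n × ℂ × ℂ → ℂ, Continuous R ∧ (∀ ζ t, R (ζ, t, t) = ev P.derivative ζ t) ∧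
      ∀ ζ t t', ev P ζ t - ev P ζ t' = R (ζ, t, t') * (t - t') := by
  induction P using Polynomial.induction_on' with
  | add p q hp hq =>
    obtain ⟨R, h1, h2, h3⟩ := hp
    obtain ⟨S, h4, h5, h6⟩ := hq
    refine ⟨R + S, h1.add h4, fun ζ t => ?_, fun ζ t t' => ?_⟩
    · rw [Pi.add_apply, h2, h5]
      simp [ev]
    · rw [Pi.add_apply, add_mul, ← h3, ← h6]
      simp only [ev, Polynomial.map_add, Polynomial.eval_add]
      ring
  | monomial j d =>
    refine ⟨fun q => MvPolynomial.eval q.1 d * ∑ i ∈ Finset.range j, q.2.1 ^ i * q.2.2 ^ (j - 1 - i),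
      ?_, fun ζ t => ?_, fun ζ t t' => ?_⟩
    · exact ((MvPolynomial.continuous_eval d).comp continuous_fst).mul (by fun_prop)
    · simp only [geom_sum₂_self]
      simp [ev, Polynomial.derivative_monomial, mul_assoc]
    · simp only [mul_assoc, geom_sum₂_mul]
      simp [ev, mul_sub]

theorem continuous_ev (P : Polynomial (MvPolynomial (Fin n) ℂ)) :
    Continuous fun q : Cm n × ℂ => ev P q.1 q.2 := by
  induction P using Polynomial.induction_on' with
  | add p q hp hq =>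
    refine (hp.add hq).congr fun q => ?_
    simp [ev]
  | monomial j d =>
    refine (((MvPolynomial.continuous_eval d).comp continuous_fst).mul
      (continuous_snd.pow j)).congr fun q => ?_
    simp [ev]

variable {M : Type} [MetricSpace M] [ChartedSpace (Cm n) M] [IsManifold 𝓘(ℂ, Cm n) 1 M]

section Chart

variable {F : Type} [NormedAddCommGroup F] [NormedSpace ℂ F] {e : Chart n M} {u : M → F} {y : M}

theorem eq_comp (hy : y ∈ e.source) : u =ᶠ[𝓝 y] (fun z => u (e.symm z)) ∘ e := by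
  filter_upwards [e.open_source.mem_nhds hy] with w hw
  simp [e.left_inv hw]

theorem cont_of (hy : y ∈ e.source) (h : AnalyticAt ℂ (fun z => u (e.symm z)) (e y)) :
    ContinuousAt u y :=
  (h.continuousAt.comp (e.continuousAt hy)).congr (eq_comp hy).symm

theorem has_of (h : AnalyticAt ℂ (fun z => u ((chartAt (Cm n) y).symm z)) (chartAt (Cm n) y y)) :
    HasMFDerivAt 𝓘(ℂ, Cm n) 𝓘(ℂ, F) u y
      ((fderiv ℂ (fun z => u ((chartAt (Cm n) y).symm z)) (chartAt (Cm n) y y)).comp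
        (mfderiv 𝓘(ℂ, Cm n) 𝓘(ℂ, Cm n) (chartAt (Cm n) y) y)) :=
  (h.differentiableAt.hasFDerivAt.hasMFDerivAt.comp y
    (mdifferentiableAt_atlas (chart_mem_atlas _ y) (mem_chart_source _ y)).hasMFDerivAt
    ).congr_of_eventuallyEq (eq_comp (mem_chart_source _ y))

theorem map_nhds {Φ : M → Cm n} (hy : y ∈ e.source)
    (h : AnalyticAt ℂ (fun z => Φ (e.symm z)) (e y))
    (hb : Function.Surjective (fderiv ℂ (fun z => Φ (e.symm z)) (e y))) :
    map Φ (𝓝 y) = 𝓝 (Φ y) := by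
  have h1 := h.hasStrictFDerivAt.map_nhds_eq_of_surj (LinearMap.range_eq_top.2 hb)
  rw [e.left_inv hy] at h1
  rw [← h1, ← e.symm_map_nhds_eq hy, map_map]
  rfl

end Chart

variable (a : B1a n M)
include a

theorem jd_ne {e : Chart n M} (he : Hc e) {z : Cm n} (hz : z ∈ e.target) :
    (jacM e (chartAt (Cm n) (e.symm z)) (e.symm z)).det ≠ 0 :=
  a.jac_ne e _ he (a.chart _) _ (e.map_target hz) (mem_chart_source _ _)

theorem co_ne {k : ℤ} {s : M → ℂ} {e : Chart n M} (he : Hc e) {z : Cm n} (hz : z ∈ e.target) :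
    co k s e z ≠ 0 ↔ s (e.symm z) ≠ 0 := by
  simp [co, zpow_ne_zero k (jd_ne a he hz)]

theorem co_div {k : ℤ} (s t : M → ℂ) {e : Chart n M} (he : Hc e) {z : Cm n} (hz : z ∈ e.target) :
    co k s e z / co k t e z = s (e.symm z) / t (e.symm z) :=
  mul_div_mul_left _ _ (zpow_ne_zero k (jd_ne a he hz))

theorem ratio_an {k : ℤ} {s t : M → ℂ} (hs : IsSec n k s) (ht : IsSec n k t) {e : Chart n M}
    (he : Hc e) {z : Cm n} (hz : z ∈ e.target) (h : t (e.symm z) ≠ 0) :
    AnalyticAt ℂ (fun z => s (e.symm z) / t (e.symm z)) z := by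
  refine ((hs e he z hz).div (ht e he z hz) ((co_ne a he hz).2 h)).congr ?_
  filter_upwards [e.open_target.mem_nhds hz] with w hw using co_div a s t he hw

theorem ratio_an' {k : ℤ} {s t : M → ℂ} (hs : IsSec n k s) (ht : IsSec n k t) {e : Chart n M}
    (he : Hc e) {y : M} (hy : y ∈ e.source) (h : t y ≠ 0) :
    AnalyticAt ℂ (fun z => s (e.symm z) / t (e.symm z)) (e y) :=
  ratio_an a hs ht he (e.map_source hy) (by rwa [e.left_inv hy])

theorem ratio_cont {k : ℤ} {s t : M → ℂ} (hs : IsSec n k s) (ht : IsSec n k t) {y : M}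
    (h : t y ≠ 0) : ContinuousAt (fun w => s w / t w) y :=
  cont_of (u := fun w => s w / t w) (mem_chart_source _ y)
    (ratio_an' a hs ht (a.chart y) (mem_chart_source _ y) h)

theorem ne_nhds {k : ℤ} {t : M → ℂ} (ht : IsSec n k t) {y : M} (h : t y ≠ 0) :
    ∀ᶠ w in 𝓝 y, t w ≠ 0 := by
  have hy := mem_chart_source (Cm n) y
  set e := chartAt (Cm n) y with he
  have h1 : co k t e (e y) ≠ 0 := by rwa [he, a.co_self]
  have h2 := ((ht e (a.chart y) _ (e.map_source hy)).continuousAt.comp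
    (e.continuousAt hy)).eventually_ne h1
  filter_upwards [h2, e.open_source.mem_nhds hy] with w h3 h4
  have h5 := (co_ne a (a.chart y) (e.map_source h4)).1 h3
  rwa [e.left_inv h4] at h5

theorem mul_ne {k l : ℤ} {s t : M → ℂ} (hs : IsSec n k s) (ht : IsSec n l t) (h1 : s ≠ 0)
    (h2 : t ≠ 0) : s * t ≠ 0 := by
  intro h
  obtain ⟨y, hy⟩ := Function.ne_iff.1 h1
  refine h2 (a.ident l t ht y ?_)
  filter_upwards [ne_nhds a hs hy] with w hw
  exact (mul_eq_zero.1 (congrFun h w)).resolve_left hw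

theorem sec_mul {k l : ℕ} {s t : M → ℂ} (hs : IsSec n (-k) s) (ht : IsSec n (-l) t) :
    IsSec n (-(k + l : ℕ)) (s * t) := by
  have h := a.sec_mul _ _ s t hs ht
  rwa [← neg_add, ← Nat.cast_add] at h

/-- the filter of the complements of zero sets of sections -/
def gen [Nonempty M] : Filter M where
  sets := {S | ∃ (k : ℕ) (τ : M → ℂ), IsSec n (-k) τ ∧ τ ≠ 0 ∧ ∀ y, τ y ≠ 0 → y ∈ S}
  univ_sets := ⟨0, 1, by
    simpa using (a.sec_zero 1).2 mdifferentiable_const, one_ne_zero, fun _ _ => trivial⟩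
  sets_of_superset := by
    rintro S S' ⟨k, τ, h1, h2, h3⟩ h
    exact ⟨k, τ, h1, h2, fun y hy => h (h3 y hy)⟩
  inter_sets := by
    rintro S S' ⟨k, τ, h1, h2, h3⟩ ⟨k', τ', h4, h5, h6⟩
    exact ⟨k + k', τ * τ', sec_mul a h1 h4, mul_ne a h1 h4 h2 h5, fun y hy =>
      ⟨h3 y (left_ne_zero_of_mul hy), h6 y (right_ne_zero_of_mul hy)⟩⟩

theorem gen_freq [Nonempty M] {p : M → Prop} (h : ∀ᶠ y in gen a, p y) (y : M) :
    ∃ᶠ w in 𝓝 y, p w := by
  obtain ⟨k, τ, h1, h2, h3⟩ := h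
  intro h4
  refine h2 (a.ident _ τ h1 y ?_)
  filter_upwards [h4] with w hw
  by_contra h5
  exact hw (h3 w h5)

instance gen_neBot [Nonempty M] : (gen a).NeBot := by
  refine ⟨fun h => ?_⟩
  have h1 : ∀ᶠ _y in gen a, False := by rw [h]; exact eventually_bot
  obtain ⟨_, h2⟩ := (gen_freq a h1 (Classical.arbitrary M)).exists
  exact h2

theorem gen_zero [Nonempty M] {u : M → ℂ} (h : ∀ᶠ y in gen a, u y = 0) {y : M}
    (hu : ContinuousAt u y) : u y = 0 :=
  isClosed_singleton.mem_of_frequently_of_tendsto (gen_freq a h y) hu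

section Jac

variable {m : ℕ} {s₀ : M → ℂ} {s : Fin n → M → ℂ}

omit a in
/-- the Jacobian determinant of the ratios in the chart `e` -/
def DJ (s₀ : M → ℂ) (s : Fin n → M → ℂ) (e : Chart n M) (z : Cm n) : ℂ :=
  LinearMap.det (fderiv ℂ (fun z i => s i (e.symm z) / s₀ (e.symm z)) z : Cm n →ₗ[ℂ] Cm n)

omit a in
theorem DJ_ne {e : Chart n M} {z : Cm n} : DJ s₀ s e z ≠ 0 ↔
    Function.Bijective (fderiv ℂ (fun z i => s i (e.symm z) / s₀ (e.symm z)) z) := by
  rw [DJ, ← isUnit_iff_ne_zero, ← LinearMap.isUnit_iff_isUnit_det, Module.End.isUnit_iff]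
  rfl

omit a in
/-- the Jacobian section -/
def Jac (s₀ : M → ℂ) (s : Fin n → M → ℂ) (y : M) : ℂ :=
  s₀ y ^ (2 * n + 1) * DJ s₀ s (chartAt (Cm n) y) (chartAt (Cm n) y y)

theorem Phi_an (h₀ : IsSec n (-m) s₀) (hs : ∀ i, IsSec n (-m) (s i)) {e : Chart n M} (he : Hc e)
    {y : M} (hy : y ∈ e.source) (h : s₀ y ≠ 0) :
    AnalyticAt ℂ (fun z i => s i (e.symm z) / s₀ (e.symm z)) (e y) :=
  analyticAt_pi_iff.2 fun i => ratio_an' a (hs i) h₀ he hy h

theorem DJ_ch (h₀ : IsSec n (-m) s₀) (hs : ∀ i, IsSec n (-m) (s i)) {e e' : Chart n M} (he : Hc e)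
    (he' : Hc e') {y : M} (hy : y ∈ e.source) (hy' : y ∈ e'.source) (h : s₀ y ≠ 0) :
    DJ s₀ s e (e y) = DJ s₀ s e' (e' y) * (jacM e e' y).det := by
  have h1 := (Phi_an a h₀ hs he' hy' h).differentiableAt.hasFDerivAt
  have h2 := (a.hol e e' he he' _ (e.map_source hy) (by rwa [e.left_inv hy])
    ).differentiableAt.hasFDerivAt
  have h3 : e' y = e' (e.symm (e y)) := by rw [e.left_inv hy]
  have h4 := (HasFDerivAt.comp (e y) (h3 ▸ h1) h2).congr_of_eventuallyEq
    (f₁ := fun z i => s i (e.symm z) / s₀ (e.symm z)) (by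
      have h5 : ∀ᶠ z in 𝓝 (e y), e.symm z ∈ e'.source :=
        (e.tendsto_symm hy).eventually (e'.open_source.mem_nhds hy')
      filter_upwards [h5] with z hz
      simp only [Function.comp_apply, e'.left_inv hz])
  rw [DJ, h4.fderiv, a.jac_eq e e' he he' y hy hy', LinearMap.det_toMatrix', DJ,
    ← LinearMap.det_comp, ← h3]
  rfl

theorem co_Jac (hm : 1 ≤ m) (h₀ : IsSec n (-m) s₀) (hs : ∀ i, IsSec n (-m) (s i)) {e : Chart n M}
    (he : Hc e) {z : Cm n} (hz : z ∈ e.target) :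
    co (-(m * (2 * n + 1) - 1 : ℕ)) (Jac s₀ s) e z =
      co (-m) s₀ e z ^ (2 * n + 1) * DJ s₀ s e z := by
  by_cases h : s₀ (e.symm z) = 0
  · simp [co, Jac, h]
  have h1 := DJ_ch a h₀ hs he (a.chart _) (e.map_target hz) (mem_chart_source _ _) h
  rw [e.right_inv hz] at h1
  have h2 := jd_ne a he hz
  have h3 : (-(m * (2 * n + 1) - 1 : ℕ) : ℤ) = -m * ((2 * n + 1 : ℕ) : ℤ) + 1 := by
    rw [Nat.cast_sub (Nat.mul_pos hm (by omega))]
    push_cast
    ring
  rw [h1, co, co, Jac, h3, zpow_add_one₀ h2, zpow_mul, zpow_natCast, mul_pow]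
  ring

theorem Jac_sec (hm : 1 ≤ m) (h₀ : IsSec n (-m) s₀) (hs : ∀ i, IsSec n (-m) (s i)) :
    IsSec n (-(m * (2 * n + 1) - 1 : ℕ)) (Jac s₀ s) := by
  intro e he z hz
  let W : Cm n → Matrix (Fin n) (Fin n) ℂ := fun z => Matrix.of fun i j =>
    co (-m) s₀ e z * fderiv ℂ (co (-m) (s i) e) z (Pi.single j 1) -
      co (-m) (s i) e z * fderiv ℂ (co (-m) s₀ e) z (Pi.single j 1)
  have hd : ∀ {t : M → ℂ}, IsSec n (-m) t → ∀ v,
      AnalyticAt ℂ (fun z => fderiv ℂ (co (-m) t e) z v) z := fun ht v =>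
    ((ContinuousLinearMap.apply ℂ ℂ v).analyticAt _).comp (ht e he z hz).fderiv
  have hW : AnalyticAt ℂ (fun z => (W z).det) z := by
    simp only [Matrix.det_apply']
    refine Finset.analyticAt_fun_sum _ fun σ _ => analyticAt_const.mul
      (Finset.analyticAt_fun_prod _ fun i _ => ?_)
    exact ((h₀ e he z hz).mul (hd (hs _) _)).sub ((hs _ e he z hz).mul (hd h₀ _))
  refine ((h₀ e he z hz).mul hW).congr ?_
  filter_upwards [e.open_target.mem_nhds hz] with w hw
  rw [co_Jac a hm h₀ hs he hw]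
  by_cases h : co (-m) s₀ e w = 0
  · simp [h]
  have h1 : HasFDerivAt (fun z i => s i (e.symm z) / s₀ (e.symm z))
      (ContinuousLinearMap.pi fun i => (co (-m) s₀ e w ^ 2)⁻¹ •
        (co (-m) s₀ e w • fderiv ℂ (co (-m) (s i) e) w -
          co (-m) (s i) e w • fderiv ℂ (co (-m) s₀ e) w)) w := by
    refine hasFDerivAt_pi.2 fun i => ?_
    have h2 := (hs i e he w hw).differentiableAt.hasFDerivAt
    have h3 := (h₀ e he w hw).differentiableAt.hasFDerivAt
    have h4 := h2.mul ((hasDerivAt_inv h).comp_hasFDerivAt w h3)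
    refine (h4.congr_fderiv ?_).congr_of_eventuallyEq ?_
    · ext v
      simp only [add_apply, smul_apply, sub_apply, smul_eq_mul, Function.comp_apply]
      field_simp
      ring
    · filter_upwards [e.open_target.mem_nhds hw] with u hu
      rw [← co_div a (k := -m) _ _ he hu, div_eq_mul_inv]
      rfl
  have h5 : W w = (co (-m) s₀ e w ^ 2) • LinearMap.toMatrix'
      (fderiv ℂ (fun z i => s i (e.symm z) / s₀ (e.symm z)) w : Cm n →ₗ[ℂ] Cm n) := by
    rw [h1.fderiv]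
    ext i j
    simp only [W, Matrix.of_apply, Matrix.smul_apply, LinearMap.toMatrix'_apply, smul_eq_mul,
      ContinuousLinearMap.coe_coe, ContinuousLinearMap.pi_apply, smul_apply, sub_apply]
    field_simp
  rw [Pi.mul_apply, h5, Matrix.det_smul, LinearMap.det_toMatrix', DJ, Fintype.card_fin]
  ring

end Jac

end Vale.Agent.P253Z.VS
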